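import Mathlib.LinearAlgebra.Projectivization.Basic
import Mathlib.RingTheory.MvPolynomial.Homogeneous
import Mathlib.Algebra.MvPolynomial.PDeriv
import Mathlib.LinearAlgebra.TensorPower.Basic
import Mathlib.Analysis.Complex.Basic
import Mathlib.Geometry.Manifold.VectorBundle.CovariantDerivative.Basic
import Mathlib.Geometry.Manifold.VectorField.LieBracket

/-!
# P296: the Chern connection, its curvature and Griffiths positivity

`X` is a complex manifold modelled on `V` and `E` is a holomorphic vector bundle on `X` with fibre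
`F`; in the question `V = ℂⁿ`, `F = ℂʳ`. Smooth means real `C^∞`; connections are Mathlib's
covariant derivatives on `E` over the real manifold `X`.
-/

noncomputable section

namespace Vale.Agent.P296T

open Bundle VectorField
open scoped Manifold ContDiff Topology ComplexConjugate LinearAlgebra.Projectivization
  TensorProduct

/-- `ℂⁿ`. -/
abbrev Cn (n : ℕ) : Type := Fin n → ℂ

/-- The kernel of the Jacobian matrix `(∂P/∂z_b (z))` of the polynomials `P ∈ S`. -/
def jacobianKernel {N : ℕ} (S : Set (MvPolynomial (Fin N) ℂ)) (z : Cn N) : Submodule ℂ (Cn N) :=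
  ⨅ P ∈ S, LinearMap.ker
    (∑ b, MvPolynomial.eval z (MvPolynomial.pderiv b P) • (LinearMap.proj b : Cn N →ₗ[ℂ] ℂ))

/-- `Z ⊆ ℙᴺ` is a nonsingular algebraic set of dimension `n`: it is the set of common zeros of a set
`S` of homogeneous polynomials whose Jacobian matrix has rank `N - n` at all points of `Z`
(Jacobian criterion). -/
def IsNonsingularAlgebraic (n : ℕ) {N : ℕ} (Z : Set (ℙ ℂ (Cn (N + 1)))) : Prop :=
  ∃ S : Set (MvPolynomial (Fin (N + 1)) ℂ), (∀ P ∈ S, ∃ k, P.IsHomogeneous k) ∧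
    ∀ (z : Cn (N + 1)) (hz : z ≠ 0),
      (Projectivization.mk ℂ z hz ∈ Z ↔ ∀ P ∈ S, MvPolynomial.eval z P = 0) ∧
      (Projectivization.mk ℂ z hz ∈ Z → Module.finrank ℂ (jacobianKernel S z) = n + 1)

/-- The value `h(v, w)` of a sesquilinear form. -/
def ev {W : Type} [AddCommGroup W] [Module ℂ W] (h : W →ₗ⋆[ℂ] W →ₗ[ℂ] ℂ) (v w : W) : ℂ := h v w

/-- The coordinate `e_α* (v)` of `v` in the basis `b = (e_α)`. -/
def co {W : Type} [AddCommGroup W] [Module ℂ W] {r : ℕ} (b : Module.Basis (Fin r) ℂ W) (v : W)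
    (α : Fin r) : ℂ := b.repr v α

/-- The value of `u ⊗ ⋯ ⊗ u` on an element of the `m`-th tensor power of `W`. -/
def pw {W : Type} [AddCommGroup W] [Module ℂ W] {m : ℕ} (u : Module.Dual ℂ W) (σ : ⨂[ℂ]^m W) : ℂ :=
  PiTensorProduct.lift ((MultilinearMap.mkPiAlgebra ℂ (Fin m) ℂ).compLinearMap fun _ => u) σ

variable (V F : Type) [NormedAddCommGroup V] [NormedSpace ℝ V] [NormedSpace ℂ V]
  [NormedAddCommGroup F] [NormedSpace ℝ F] [NormedSpace ℂ F]
  {X : Type} [TopologicalSpace X] [ChartedSpace V X] {n r : ℕ}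

/-- `Φ : X → ℙ(W)` is a holomorphic immersion: in a chart around every point it is given by
holomorphic homogeneous coordinates `s` whose differential maps no nonzero tangent vector to a
multiple of `s`. -/
def IsHolomorphicImmersion {W : Type} [NormedAddCommGroup W] [NormedSpace ℂ W] (Φ : X → ℙ ℂ W) :
    Prop :=
  ∀ x : X, ∃ c ∈ atlas V X, ∃ (U : Set V) (s : V → W),
    x ∈ c.source ∧ c x ∈ U ∧ IsOpen U ∧ U ⊆ c.target ∧ DifferentiableOn ℂ s U ∧
    ∀ z ∈ U, (∃ h : s z ≠ 0, Φ (c.symm z) = Projectivization.mk ℂ (s z) h) ∧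
      ∀ (v : V) (a : ℂ), fderiv ℂ s z v = a • s z → v = 0

variable (n X) in
/-- The complex manifold `X` is a smooth projective variety of dimension `n`: an injective
holomorphic immersion maps it onto a nonsingular algebraic subset of dimension `n` of `ℙᴺ`. -/
def IsSmoothProjective : Prop :=
  ∃ (N : ℕ) (Φ : X → ℙ ℂ (Cn (N + 1))), Function.Injective Φ ∧ IsHolomorphicImmersion V Φ ∧
    IsNonsingularAlgebraic n (Set.range Φ)

/-- The real tangent space of `X` at `x`. -/
abbrev Tan (x : X) : Type := TangentSpace 𝓘(ℝ, V) x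

/-- The complex structure: multiplication by `i` on the tangent space. -/
def J {x : X} (v : Tan V x) : Tan V x :=
  (Complex.I • (show TangentSpace 𝓘(ℂ, V) x from v) : TangentSpace 𝓘(ℂ, V) x)

/-- The derivative `df (v)` of a vector valued function. -/
def df {W : Type} [NormedAddCommGroup W] [NormedSpace ℝ W] (f : X → W) (x : X) (v : Tan V x) : W :=
  mvfderiv 𝓘(ℝ, V) f x v

/-- The Lie bracket of vector fields. -/
def br (A B : ∀ x : X, Tan V x) (x : X) : Tan V x := mlieBracket 𝓘(ℝ, V) A B x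

/-- The vector field `A` is smooth at `x`. -/
def SmoothField [IsManifold 𝓘(ℝ, V) ∞ X] (A : ∀ x : X, Tan V x) (x : X) : Prop :=
  ContMDiffAt 𝓘(ℝ, V) 𝓘(ℝ, V).tangent ∞ (fun y => TotalSpace.mk' V y (A y)) x

variable {E : X → Type} [∀ x, AddCommGroup (E x)] [∀ x, Module ℂ (E x)]
  [∀ x, TopologicalSpace (E x)] [TopologicalSpace (TotalSpace F E)] [FiberBundle F E]

/-- The section `s` of `E` is smooth at `x`. -/
def SmoothSec (s : ∀ x, E x) (x : X) : Prop :=
  ContMDiffAt 𝓘(ℝ, V) (𝓘(ℝ, V).prod 𝓘(ℝ, F)) ∞ (fun y => TotalSpace.mk' F y (s y)) x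

/-- The section `s` of `E` is holomorphic in a neighbourhood of `x`. -/
def HolSec (s : ∀ x, E x) (x : X) : Prop :=
  ∀ᶠ p in 𝓝 x, MDifferentiableAt 𝓘(ℂ, V) (𝓘(ℂ, V).prod 𝓘(ℂ, F))
    (fun y => TotalSpace.mk' F y (s y)) p

variable (E) in
/-- A smooth Hermitian metric on `E`. -/
structure Herm where
  h : ∀ x, E x →ₗ⋆[ℂ] E x →ₗ[ℂ] ℂ
  herm : ∀ x v w, ev (h x) w v = conj (ev (h x) v w)
  pos : ∀ x v, v ≠ 0 → 0 < (ev (h x) v v).re
  smooth : ∀ s t x, SmoothSec V F s x → SmoothSec V F t x →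
    ContMDiffAt 𝓘(ℝ, V) 𝓘(ℝ, ℂ) ∞ (fun y => ev (h y) (s y) (t y)) x

variable (E) in
/-- Maps `(v, w, e) ↦ R(v, w) e`. -/
abbrev Curv : Type := ∀ x : X, Tan V x → Tan V x → E x → E x

variable {V F}

/-- The points `z` of the coordinate domain of the chart `c` over which `t` trivializes `E`. -/
def dom (c : OpenPartialHomeomorph X V) (t : Trivialization F (π F E)) : Set V :=
  {z | z ∈ c.target ∧ c.symm z ∈ t.baseSet}

/-- A function on the dual bundle `E*`, read in the chart `c` and the trivialization `t`. -/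
def loc [VectorBundle ℂ F E] {W : Type} (s : ∀ x, Module.Dual ℂ (E x) → W)
    (c : OpenPartialHomeomorph X V) (t : Trivialization F (π F E)) [MemTrivializationAtlas t]
    (p : V × StrongDual ℂ F) : W :=
  s (c.symm p.1) (p.2.toLinearMap ∘ₗ t.linearMapAt ℂ (c.symm p.1))

section

variable (V') [NormedAddCommGroup V'] [NormedSpace ℂ V'] {Y : Type} [TopologicalSpace Y]
  [ChartedSpace V' Y] (L : Y → Type) [∀ y, AddCommGroup (L y)] [∀ y, Module ℂ (L y)]
  [∀ y, TopologicalSpace (L y)] [TopologicalSpace (TotalSpace ℂ L)] [FiberBundle ℂ L]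

/-- The line bundle `L` on `Y` is ample: for some `m ≥ 1` there are holomorphic sections
`σ_0, …, σ_N` of `L^{⊗m}` without common zero such that `Φ = [σ_0 : … : σ_N]` is an injective
holomorphic immersion of `Y` into `ℙᴺ`. -/
def IsAmpleLine [VectorBundle ℂ ℂ L] : Prop :=
  ∃ (m N : ℕ) (σ : Fin (N + 1) → ∀ y, ⨂[ℂ]^m (L y)) (Φ : Y → ℙ ℂ (Cn (N + 1))), 1 ≤ m ∧
    (∀ i (t : Trivialization ℂ (π ℂ L)) [MemTrivializationAtlas t],
      MDifferentiableOn 𝓘(ℂ, V') 𝓘(ℂ, ℂ) (fun y => pw (t.linearMapAt ℂ y) (σ i y)) t.baseSet) ∧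
    (∀ y (u : Module.Dual ℂ (L y)), u ≠ 0 → ∃ h : (fun i => pw u (σ i y)) ≠ 0,
      Φ y = Projectivization.mk ℂ _ h) ∧
    Function.Injective Φ ∧ IsHolomorphicImmersion V' Φ

variable (V F) in
/-- `p : Y → X` is `ℙ(E)` and `q : p* E → L` is the tautological quotient `O(1)`: the points of `Y`
over `x` are the one-dimensional quotients of `E x` (`pt x u` is the point whose kernel is that of
the linear form `u ≠ 0`), and `p`, `q` and `pt` are holomorphic. -/
structure IsProjectivization [VectorBundle ℂ F E] (p : Y → X) (q : ∀ y, E (p y) →ₗ[ℂ] L y)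
    (pt : ∀ x, Module.Dual ℂ (E x) → Y) : Prop where
  surj : ∀ y, Function.Surjective (q y)
  base : ∀ x u, u ≠ 0 → p (pt x u) = x
  ker : ∀ y u, u ≠ 0 → (pt (p y) u = y ↔ ∀ e, u e = 0 ↔ q y e = 0)
  hol_p : MDifferentiable 𝓘(ℂ, V') 𝓘(ℂ, V) p
  hol_q : ∀ s y, HolSec V F s (p y) → HolSec V' ℂ (fun z => q z (s (p z))) y
  hol_pt : ∀ c ∈ atlas V X, ∀ (t : Trivialization F (π F E)) [MemTrivializationAtlas t],
    MDifferentiableOn 𝓘(ℂ, V × StrongDual ℂ F) 𝓘(ℂ, V') (loc pt c t) (dom c t ×ˢ {0}ᶜ)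

end

variable (V F E) in
/-- `E` is ample: the line bundle `O(1)` on the complex manifold `ℙ(E)` is ample. -/
def IsAmple [VectorBundle ℂ F E] : Prop :=
  ∃ (V' : Type) (_ : NormedAddCommGroup V') (_ : NormedSpace ℂ V') (Y : Type)
    (_ : TopologicalSpace Y) (_ : ChartedSpace V' Y) (L : Y → Type) (_ : ∀ y, AddCommGroup (L y))
    (_ : ∀ y, Module ℂ (L y)) (_ : ∀ y, TopologicalSpace (L y))
    (_ : TopologicalSpace (TotalSpace ℂ L)) (_ : FiberBundle ℂ L) (_ : VectorBundle ℂ ℂ L)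
    (p : Y → X) (q : ∀ y, E (p y) →ₗ[ℂ] L y) (pt : ∀ x, Module.Dual ℂ (E x) → Y),
    FiniteDimensional ℂ V' ∧ IsManifold 𝓘(ℂ, V') ω Y ∧ ContMDiffVectorBundle ω ℂ L 𝓘(ℂ, V') ∧
      IsProjectivization V F V' L p q pt ∧ IsAmpleLine V' L

/-- `b` is an orthonormal frame at `x`. -/
def Herm.Orthonormal (H : Herm V F E) {x : X} (b : Module.Basis (Fin r) ℂ (E x)) : Prop :=
  ∀ α β, ev (H.h x) (b α) (b β) = if α = β then 1 else 0

/-- `dz_j (v)` for the local coordinates `z_j = κ_j ∘ c`, where `c` is a chart and the `κ_j` are the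
coordinates of the model space. -/
def dz (κ : V → Fin n → ℂ) (c : OpenPartialHomeomorph X V) {x : X} (v : Tan V x) : Fin n → ℂ :=
  κ (df V c x v)

/-- `Θ = i R` is `i ∑ a_{jkαβ} dz_j ∧ dz̄_k ⊗ e_α* ⊗ e_β` at `x`, in the coordinates `κ ∘ c` and the
frame `b`. -/
def IsCoeff (κ : V → Fin n → ℂ) (R : Curv V E) (c : OpenPartialHomeomorph X V) {x : X}
    (b : Module.Basis (Fin r) ℂ (E x)) (a : Fin n → Fin n → Fin r → Fin r → ℂ) : Prop :=
  ∀ (v w : Tan V x) (e : E x), Complex.I • R x v w e = Complex.I • ∑ j, ∑ k, ∑ α, ∑ β,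
    (a j k α β * (dz κ c v j * conj (dz κ c w k) - dz κ c w j * conj (dz κ c v k)) *
      co b e α) • b β

variable [∀ x, IsTopologicalAddGroup (E x)] [∀ x, ContinuousSMul ℝ (E x)]

variable (V F E) in
/-- Connections on `E`. -/
abbrev Conn : Type := CovariantDerivative 𝓘(ℝ, V) F E

/-- `D_v s` for a tangent vector `v` at `x`. -/
def cov (D : Conn V F E) (s : ∀ x, E x) (x : X) (v : Tan V x) : E x := D s x v

variable [IsManifold 𝓘(ℝ, V) ∞ X]

/-- `D` is a Chern connection of `H`: complex linear, smooth, compatible with `H`, and its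
`(0,1)`-part vanishes on local holomorphic sections. -/
structure IsChern (H : Herm V F E) (D : Conn V F E) : Prop where
  complex : ∀ s x v, SmoothSec V F s x → cov D (Complex.I • s) x v = Complex.I • cov D s x v
  smooth : ∀ s A x, SmoothSec V F s x → SmoothField V A x →
    SmoothSec V F (fun y => cov D s y (A y)) x
  metric : ∀ s t x v, SmoothSec V F s x → SmoothSec V F t x →
    df V (fun y => ev (H.h y) (s y) (t y)) x v =
      ev (H.h x) (cov D s x v) (t x) + ev (H.h x) (s x) (cov D t x v)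
  dbar : ∀ s x v, HolSec V F s x → cov D s x v + Complex.I • cov D s x (J V v) = 0

/-- `R` is the curvature `R(A,B)s = D_A D_B s - D_B D_A s - D_[A,B] s` of `D`. -/
def IsCurv (D : Conn V F E) (R : Curv V E) : Prop :=
  ∀ A B s x, SmoothField V A x → SmoothField V B x → SmoothSec V F s x →
    R x (A x) (B x) (s x) = cov D (fun y => cov D s y (B y)) x (A x) -
      cov D (fun y => cov D s y (A y)) x (B x) - cov D s x (br V A B x)

variable (r) in
/-- Strict Griffiths positivity: `∑ a_{jkαβ} ξ_j ξ̄_k v_α v̄_β > 0` at every point, for all nonzero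
`ξ ∈ T_x X` and `v ∈ E_x`, where the `a_{jkαβ}` are the coefficients of the curvature of the Chern
connection in local coordinates and an orthonormal frame. -/
def Herm.Positive (κ : V → Fin n → ℂ) (H : Herm V F E) : Prop :=
  ∃ D R, IsChern H D ∧ IsCurv D R ∧ ∀ x, ∀ c ∈ atlas V X, x ∈ c.source →
    ∀ (b : Module.Basis (Fin r) ℂ (E x)) a, H.Orthonormal b → IsCoeff κ R c b a →
    ∀ ξ : Tan V x, ξ ≠ 0 → ∀ v : E x, v ≠ 0 →
      0 < (∑ j, ∑ k, ∑ α, ∑ β,
        a j k α β * dz κ c ξ j * conj (dz κ c ξ k) * co b v α * conj (co b v β)).re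

variable (r) in
/-- The Chern connection exists and is unique, it has exactly one curvature, orthonormal frames
exist and the coefficients exist and are unique. -/
def Herm.WellDefined (κ : V → Fin n → ℂ) (H : Herm V F E) : Prop :=
  (∀ x, ∃ b : Module.Basis (Fin r) ℂ (E x), H.Orthonormal b) ∧
  ∃ D, IsChern H D ∧
    (∀ D', IsChern H D' → ∀ s x v, SmoothSec V F s x → cov D' s x v = cov D s x v) ∧
    ∃ R, IsCurv D R ∧ (∀ D' R', IsChern H D' → IsCurv D' R' → R' = R) ∧
      ∀ x, ∀ c ∈ atlas V X, x ∈ c.source →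
        ∀ b : Module.Basis (Fin r) ℂ (E x), ∃! a, IsCoeff κ R c b a

variable (F r) in
/-- On a holomorphic vector bundle on a compact complex manifold there are smooth Hermitian metrics,
and for each the objects in the question exist and are unique. -/
def AllWellDefined (κ : V → Fin n → ℂ) : Prop :=
  ∀ (X : Type) [TopologicalSpace X] [ChartedSpace V X] [IsManifold 𝓘(ℂ, V) ω X]
    [IsManifold 𝓘(ℝ, V) ∞ X] [T2Space X] [CompactSpace X]
    (E : X → Type) [∀ x, AddCommGroup (E x)] [∀ x, Module ℂ (E x)] [∀ x, TopologicalSpace (E x)]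
    [∀ x, IsTopologicalAddGroup (E x)] [∀ x, ContinuousSMul ℝ (E x)]
    [TopologicalSpace (TotalSpace F E)] [FiberBundle F E] [VectorBundle ℂ F E]
    [ContMDiffVectorBundle ω F E 𝓘(ℂ, V)],
    Nonempty (Herm V F E) ∧ ∀ H : Herm V F E, H.WellDefined r κ

variable (F r) in
/-- Griffiths' conjecture for varieties modelled on `V` and bundles with fibre `F`. -/
def Griffiths (κ : V → Fin n → ℂ) : Prop :=
  ∀ (X : Type) [TopologicalSpace X] [ChartedSpace V X] [IsManifold 𝓘(ℂ, V) ω X]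
    [IsManifold 𝓘(ℝ, V) ∞ X] [T2Space X] [CompactSpace X] [ConnectedSpace X],
    IsSmoothProjective V X n →
    ∀ (E : X → Type) [∀ x, AddCommGroup (E x)] [∀ x, Module ℂ (E x)] [∀ x, TopologicalSpace (E x)]
      [∀ x, IsTopologicalAddGroup (E x)] [∀ x, ContinuousSMul ℝ (E x)]
      [TopologicalSpace (TotalSpace F E)] [FiberBundle F E] [VectorBundle ℂ F E]
      [ContMDiffVectorBundle ω F E 𝓘(ℂ, V)],
      IsAmple V F E → ∃ H : Herm V F E, H.Positive r κ

/-- Griffiths' conjecture for varieties of dimension `n` and bundles of rank `r`. -/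
def Q1 (n r : ℕ) : Prop := Griffiths (Cn r) r fun z : Cn n => z

end Vale.Agent.P296T
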