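import Vale.Agent.P296C80.Fin
import Vale.Agent.P296D80.St

/-! The projective bundle with its tautological quotient line bundle. -/

set_option linter.all false

noncomputable section

namespace Vale.Agent.P296T

open Bundle Filter Set
open scoped Manifold ContDiff Topology LinearAlgebra.Projectivization TensorProduct
open Vale.Agent.P296Z (PE Idx chart och cv fs ins aff covec tw)

theorem prop_of_ker {W : Type} [AddCommGroup W] [Module ℂ W] {u v : Module.Dual ℂ W}
    (h : ∀ e, v e = 0 → u e = 0) : ∃ a : ℂ, a • v = u := by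
  have h1 : u ∈ Submodule.span ℂ (range fun _ : Unit => v) :=
    mem_span_of_iInf_ker_le_ker fun e he => h e ((Submodule.mem_iInf _).1 he ())
  rw [range_const, Submodule.mem_span_singleton] at h1
  exact h1

theorem pw_smul {W : Type} [AddCommGroup W] [Module ℂ W] {m : ℕ} (u : Module.Dual ℂ W) (a : ℂ)
    (w : W) : pw u (a • PiTensorProduct.tprod ℂ fun _ : Fin m => w) = u w ^ m * a := by
  simp [pw, mul_comm]

variable {n q : ℕ} {X : Type} [TopologicalSpace X] [ChartedSpace (Cn n) X]
  {E : X → Type} [∀ x, AddCommGroup (E x)] [∀ x, Module ℂ (E x)] [∀ x, TopologicalSpace (E x)]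
  [TopologicalSpace (TotalSpace (Cn (q + 1)) E)] [FiberBundle (Cn (q + 1)) E]
  [VectorBundle ℂ (Cn (q + 1)) E]

/-- the representative whose distinguished coordinate in the chart is one -/
def nl (α : Idx n q E) (p : PE n q E) : Module.Dual ℂ (E p.base) := (cv α.t p α.k)⁻¹ • p.vec

/-- the transition functions -/
def rat (α β : Idx n q E) (p : PE n q E) : ℂ := cv α.t p α.k / cv β.t p β.k

theorem nl_ne {α : Idx n q E} {p : PE n q E} (h : p ∈ (chart α).source) : nl α p ≠ 0 :=
  smul_ne_zero (inv_ne_zero h.2.2) p.vec_ne_zero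

theorem rat_ne {α β : Idx n q E} {p : PE n q E} (h : p ∈ (chart α).source)
    (h' : p ∈ (chart β).source) : rat α β p ≠ 0 := div_ne_zero h.2.2 h'.2.2

theorem rat_smul {α β : Idx n q E} {p : PE n q E} (h : p ∈ (chart α).source) :
    rat α β p • nl α p = nl β p := by
  unfold rat nl
  rw [smul_smul, div_eq_mul_inv, mul_right_comm, mul_inv_cancel₀ h.2.2, one_mul]

theorem nl_eq {α : Idx n q E} {p : PE n q E} (h : p ∈ (chart α).source) :
    nl α p = covec α.t p.base (ins n α.k (chart α p)) := by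
  rw [P296Z.chart_apply, P296Z.ins_aff _ _ h.2.2, P296Z.covec_smul]
  unfold nl cv
  rw [P296Z.covec_co h.2.1]

theorem base_eq {α : Idx n q E} {p : PE n q E} (h : p ∈ (chart α).source) :
    α.c.symm (fs q (chart α p)) = p.base := by
  rw [← P296Z.base_chart_symm, (chart α).left_inv h]

theorem s_nl {W : Type} (s : ∀ x, Module.Dual ℂ (E x) → W) {α : Idx n q E} {p : PE n q E}
    (h : p ∈ (chart α).source) :
    s p.base (nl α p) = P296Z.loc s α.c α.t (fs q (chart α p), ins n α.k (chart α p)) := by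
  unfold P296Z.loc
  dsimp only
  rw [base_eq h, nl_eq h]

theorem rat_eq {α β : Idx n q E} {p : PE n q E} (hα : p ∈ (chart α).source)
    (h : p ∈ (chart β).source) : rat α β p = tw β α.t (chart β p) α.k := by
  obtain ⟨a, ha, h4, h5⟩ := P296Z.cv_chart_symm β ((chart β).map_source h)
  have h6 := h5 α.t (by rw [base_eq h]; exact hα.2.1)
  rw [(chart β).left_inv h] at h4 h6
  unfold rat
  rw [h4, h6, Pi.smul_apply, smul_eq_mul, mul_div_cancel_left₀ _ ha]

theorem line_eq {α : Idx n q E} {p : PE n q E} (h : p ∈ (chart α).source) :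
    p.line = Projectivization.mk ℂ (nl α p) (nl_ne h) := by
  rw [← p.line.mk_rep]
  symm
  rw [Projectivization.mk_eq_mk_iff']
  exact ⟨_, rfl⟩

variable [IsManifold 𝓘(ℂ, Cn n) ω X] [ContMDiffVectorBundle ω (Cn (q + 1)) E 𝓘(ℂ, Cn n)]

theorem cm_chart {α : Idx n q E} {p : PE n q E} (h : p ∈ (chart α).source) :
    ContMDiffAt 𝓘(ℂ, Cn (n + q)) 𝓘(ℂ, Cn (n + q)) ω (chart α) p :=
  P272.K.chart_contMDiffAt (e := och α) ⟨P296Z.och_mem_atlas α, h⟩

theorem src_nhds {α : Idx n q E} {p : PE n q E} (h : p ∈ (chart α).source) :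
    ∀ᶠ p' in 𝓝 p, p' ∈ (chart α).source := (och α).open_source.mem_nhds h

theorem cm_rat {α β : Idx n q E} {p : PE n q E} (hα : p ∈ (chart α).source)
    (h : p ∈ (chart β).source) : ContMDiffAt 𝓘(ℂ, Cn (n + q)) 𝓘(ℂ, ℂ) ω (rat α β) p := by
  have h1 := contDiffAt_pi.1 (P296Z.contDiffAt_tw β (t' := α.t) ((chart β).map_source h)
    (by rw [base_eq h]; exact hα.2.1)) α.k
  refine (h1.contMDiffAt.comp p (cm_chart h)).congr_of_eventuallyEq ?_
  filter_upwards [src_nhds hα, src_nhds h] with p' f1 f2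
  exact rat_eq f1 f2

theorem cm_cc (α β : Idx n q E) : ContMDiffOn 𝓘(ℂ, Cn (n + q)) 𝓘(ℂ, ℂ →L[ℂ] ℂ) ω
    (fun p : PE n q E => rat α β p • ContinuousLinearMap.id ℂ ℂ)
    ((chart α).source ∩ (chart β).source) := fun p hp =>
  ((cm_rat hp.1 hp.2).smul contMDiffAt_const).contMDiffWithinAt

variable (n q E) in
/-- the tautological quotient line bundle -/
def oc : VectorBundleCore ℂ (PE n q E) ℂ (Idx n q E) where
  baseSet α := (chart α).source
  isOpen_baseSet α := (och α).open_source
  indexAt p := (P296Z.exists_idx p).choose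
  mem_baseSet_at p := (P296Z.exists_idx p).choose_spec
  coordChange α β p := rat α β p • ContinuousLinearMap.id ℂ ℂ
  coordChange_self α p hp v := by
    have h : cv α.t p α.k ≠ 0 := hp.2.2
    simp [rat, h]
  continuousOn_coordChange α β := (cm_cc α β).continuousOn
  coordChange_comp α β γ p hp v := by
    have h : cv β.t p β.k ≠ 0 := hp.1.2.2.2
    simp only [rat, ContinuousLinearMap.smul_apply, ContinuousLinearMap.id_apply, smul_eq_mul]
    field_simp

theorem oc_smooth : (oc n q E).IsContMDiff 𝓘(ℂ, Cn (n + q)) ω := ⟨cm_cc⟩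

theorem mem_ix (p : PE n q E) : p ∈ (chart ((oc n q E).indexAt p)).source :=
  (oc n q E).mem_baseSet_at p

/-- the quotient map -/
def qq (p : PE n q E) : E p.base →ₗ[ℂ] (oc n q E).Fiber p := nl ((oc n q E).indexAt p) p

theorem triv_apply (α : Idx n q E) (p : PE n q E) (v : (oc n q E).Fiber p) :
    ((oc n q E).localTriv α ⟨p, v⟩).2 = rat ((oc n q E).indexAt p) α p * (show ℂ from v) := rfl

theorem md_base (p : PE n q E) :
    MDifferentiableAt 𝓘(ℂ, Cn (n + q)) 𝓘(ℂ, Cn n) (PE.base : PE n q E → X) p := by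
  obtain ⟨α, h⟩ := P296Z.exists_idx p
  have h1 := (P272.K.chart_symm_contMDiffAt α.hc ((chart α).map_source h).1).comp p
    (f := fun p => fs q (chart α p))
    ((P296Z.contDiff_fs (n := n) (q := q)).contDiffAt.contMDiffAt.comp p (cm_chart h))
  refine (h1.congr_of_eventuallyEq ?_).mdifferentiableAt (by simp)
  filter_upwards [src_nhds h] with p' f1
  exact (base_eq f1).symm

theorem isProj : IsProjectivization (Cn n) (Cn (q + 1)) (Cn (n + q)) (oc n q E).Fiber PE.base qq
    (PE.of n q) where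
  surj y := LinearMap.surjective_iff_ne_zero.2 (nl_ne (mem_ix y))
  base x u hu := rfl
  ker y u hu := by
    have h0 : ∀ e, qq y e = 0 ↔ y.vec e = 0 := fun e => by
      change (cv _ y _)⁻¹ * y.vec e = 0 ↔ _
      rw [mul_eq_zero, or_iff_right (inv_ne_zero (mem_ix y).2.2)]
    simp only [h0]
    constructor
    · intro h e
      have h1 : P296Z.mkD q y.base u = y.line := eq_of_heq (PE.mk.inj h).2
      obtain ⟨a, ha, h2⟩ := P296Z.PE.vec_of (n := n) (q := q) hu
      have h3 : y.vec e = a * u e :=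
        (congrArg (fun l : ℙ ℂ (Module.Dual ℂ (E y.base)) => l.rep e) h1.symm).trans
          (LinearMap.congr_fun h2 e)
      rw [h3, mul_eq_zero, or_iff_right ha]
    · intro h
      obtain ⟨a, ha⟩ := prop_of_ker fun e => (h e).2
      have h1 : a ≠ 0 := fun h0 => hu (by rw [← ha, h0, zero_smul])
      rw [← ha, P296Z.PE.of_smul y.vec_ne_zero h1, P296Z.PE.of_vec]
  hol_p := md_base
  hol_q s y hs := by
    have hs' := (P296Z.continuous_base (n := n) (q := q)).continuousAt.eventually hs
    refine hs'.mono fun z hz => ?_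
    set α := (oc n q E).indexAt z with hα
    have hz' : z ∈ (chart α).source := mem_ix z
    refine (mdifferentiableAt_section 𝓘(ℂ, Cn (n + q)) (fun z => qq z (s z.base))).2 ?_
    have h1 := ((α.t.mdifferentiableAt_section_iff 𝓘(ℂ, Cn n) s hz'.2.1).1 hz).comp z (md_base z)
    have h2 : MDifferentiableAt 𝓘(ℂ, Cn (n + q)) 𝓘(ℂ, Cn (q + 1))
        (fun p : PE n q E => ins n α.k (chart α p)) z :=
      ((P296Z.contDiff_ins α.k).contDiffAt.contMDiffAt.comp z (cm_chart hz')).mdifferentiableAt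
        (by simp)
    have h3 : Differentiable ℂ fun w : Cn (q + 1) × Cn (q + 1) => ∑ a, w.1 a * w.2 a := by fun_prop
    refine ((h3 _).mdifferentiableAt.comp z (h2.prodMk_space h1)).congr_of_eventuallyEq ?_
    filter_upwards [src_nhds hz'] with p f1
    have h4 := LinearMap.congr_fun (rat_smul (β := α) (mem_ix p)) (s p.base)
    rw [nl_eq f1, P296Z.covec_apply, Trivialization.coe_linearMapAt_of_mem _ f1.2.1] at h4
    exact h4
  hol_pt c hc t ht := by
    rintro ⟨z, u⟩ ⟨hz, hu⟩
    have hu' : P296S.dualCo (q + 1) u ≠ 0 := fun h0 =>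
      hu (P296S.dualCo_inj (h0.trans (map_zero _).symm))
    obtain ⟨k, hk⟩ := Function.ne_iff.1 hu'
    have hk' : P296S.dualCo (q + 1) u k ≠ 0 := hk
    let α : Idx n q E := ⟨c, hc, t, ht, k⟩
    let L := (ContinuousLinearMap.id ℂ (Cn n)).prodMap (P296S.dualCo (q + 1))
    have h1 : ContDiffAt ℂ ω (fun w => aff k (L w)) (z, u) :=
      (P296Z.contDiffAt_aff k (p := L (z, u)) hk').comp (z, u) L.contDiff.contDiffAt
    have h2 : aff k (L (z, u)) ∈ (och α).target := by
      change fs q (aff k (L (z, u))) ∈ P296Z.dom c t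
      rw [P296Z.fs_aff]
      exact hz
    have h3 := (P272.K.chart_symm_contMDiffAt (P296Z.och_mem_atlas α) h2).comp (z, u)
      (f := fun w => aff k (L w)) h1.contMDiffAt
    refine ((h3.congr_of_eventuallyEq ?_).mdifferentiableAt (by simp)).mdifferentiableWithinAt
    have e1 : ∀ᶠ w : Cn n × StrongDual ℂ (Cn (q + 1)) in 𝓝 (z, u), w.1 ∈ P296Z.dom c t :=
      continuous_fst.continuousAt.eventually_mem ((P296Z.isOpen_dom c t).mem_nhds hz)
    have e2 : ∀ᶠ w : Cn n × StrongDual ℂ (Cn (q + 1)) in 𝓝 (z, u), (L w).2 k ≠ 0 :=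
      ((continuous_apply k).comp (continuous_snd.comp L.continuous)).continuousAt.eventually_ne hk'
    filter_upwards [e1, e2] with w f1 f2
    have f3 : (L w).2 ≠ 0 := fun h => f2 (congrFun h k)
    change _ = P296Z.pt n t (c.symm (fs q (aff k (L w)))) (ins n k (aff k (w.1, (L w).2)))
    rw [P296Z.fs_aff, P296Z.ins_aff _ _ f2]
    refine Eq.trans ?_ (P296Z.pt_smul f1.2 f3 (inv_ne_zero f2)).symm
    refine congrArg (PE.of n q (c.symm w.1)) (LinearMap.ext fun v => ?_)
    exact (P296S.dualCo_sum _ _).trans (P296Z.covec_apply _ v).symm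

theorem ampleLine (h : P296Z.IsAmple n (q + 1) E) :
    IsAmpleLine (Cn (n + q)) (oc n q E).Fiber := by
  obtain ⟨m, N, s, Φ, h1, h2, h3, h4, h5⟩ := h
  have hlift : ∀ k : Fin (q + 1), ContDiff ℂ ω (fun y : Cn (n + q) => (fs q y, ins n k y)) :=
    fun k => P296Z.contDiff_fs.prodMk (P296Z.contDiff_ins k)
  have hd : ∀ (α : Idx n q E) (w : Cn (n + q)), w ∈ (chart α).target →
      DifferentiableAt ℂ (P296Z.loc s α.c α.t) (fs q w, ins n α.k w) := fun α w hw =>
    (h5 α.c α.hc α.t).1.differentiableAt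
      (((P296Z.isOpen_dom _ _).prod isOpen_compl_singleton).mem_nhds
        ⟨hw, P296Z.ins_ne_zero _ _⟩)
  have hd' : ∀ (α : Idx n q E) (w : Cn (n + q)), w ∈ (chart α).target →
      DifferentiableAt ℂ (fun w => P296Z.loc s α.c α.t (fs q w, ins n α.k w)) w := fun α w hw =>
    (hd α w hw).comp w (f := fun y => (fs q y, ins n α.k y))
      ((hlift α.k).differentiable (by simp) w)
  refine ⟨m, N, fun i y => s y.base (nl ((oc n q E).indexAt y) y) i •
    PiTensorProduct.tprod ℂ fun _ => (show (oc n q E).Fiber y from (1 : ℂ)),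
    fun y => Φ ⟨y.base, y.line⟩, h1, ?_, fun y u hu => ?_, ?_, fun y => ?_⟩
  · rintro i _ ⟨α, rfl⟩ y hy
    have hy' : y ∈ (chart α).source := hy
    have h6 := (((differentiableAt_pi.1 (hd' α _ ((chart α).map_source hy')) i)).mdifferentiableAt).comp y
      ((cm_chart hy').mdifferentiableAt (by simp))
    refine (h6.congr_of_eventuallyEq ?_).mdifferentiableWithinAt
    filter_upwards [src_nhds hy'] with p f1
    have h7 := congrFun (h2 _ _ _ (nl_ne (mem_ix p)) (rat_ne (mem_ix p) f1)) i
    rw [rat_smul (mem_ix p), s_nl s f1] at h7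
    refine (pw_smul _ _ _).trans (Eq.trans ?_ h7.symm)
    have h8 := congrFun (Trivialization.coe_linearMapAt_of_mem (R := ℂ) ((oc n q E).localTriv α)
      (b := p) f1) (show (oc n q E).Fiber p from (1 : ℂ))
    exact congrArg (fun a : ℂ => a ^ m * s p.base (nl ((oc n q E).indexAt p) p) i)
      (h8.trans (mul_one _))
  · have h6 : u (show (oc n q E).Fiber y from (1 : ℂ)) ≠ 0 := fun h0 => hu <| by
      refine LinearMap.ext fun v => ?_
      have h7 : v = (show ℂ from v) • (show (oc n q E).Fiber y from (1 : ℂ)) :=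
        (mul_one (show ℂ from v)).symm
      rw [h7, map_smul, h0, smul_zero, LinearMap.zero_apply]
    obtain ⟨h7, h8⟩ := h3 _ _ (nl_ne (mem_ix y))
    have h9 : (fun i => pw u (s y.base (nl ((oc n q E).indexAt y) y) i •
        PiTensorProduct.tprod ℂ fun _ : Fin m => (show (oc n q E).Fiber y from (1 : ℂ)))) =
        u (show (oc n q E).Fiber y from (1 : ℂ)) ^ m • s y.base (nl ((oc n q E).indexAt y) y) :=
      funext fun i => pw_smul _ _ _
    refine ⟨h9 ▸ smul_ne_zero (pow_ne_zero _ h6) h7, ?_⟩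
    dsimp only
    rw [line_eq (mem_ix y), h8]
    symm
    rw [Projectivization.mk_eq_mk_iff']
    exact ⟨_, h9.symm⟩
  · rintro ⟨x, l⟩ ⟨x', l'⟩ h
    have h6 := h4 h
    cases h6
    rfl
  · obtain ⟨α, hα⟩ := P296Z.exists_idx y
    refine ⟨och α, P296Z.och_mem_atlas α, (chart α).target,
      fun w => P296Z.loc s α.c α.t (fs q w, ins n α.k w), hα, (chart α).map_source hα,
      (och α).open_target, subset_rfl, fun w hw => (hd' α w hw).differentiableWithinAt,
      fun w hw => ⟨?_, fun v a hv => ?_⟩⟩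
    · have h6 := P296Z.covec_ne_zero (t := α.t) hw.2 (P296Z.ins_ne_zero α.k w)
      obtain ⟨h7, h8⟩ := h3 _ _ h6
      exact ⟨h7, Eq.trans (congrArg (fun l => Φ ⟨_, l⟩) (P296Z.mkD_of_ne h6)) h8⟩
    · have h6 := fderiv_comp w (g := P296Z.loc s α.c α.t) (f := fun y => (fs q y, ins n α.k y))
        (hd α w hw) ((hlift α.k).differentiable (by simp) w)
      change fderiv ℂ (P296Z.loc s α.c α.t ∘ fun y => (fs q y, ins n α.k y)) w v = _ at hv
      rw [h6, ContinuousLinearMap.comp_apply, P296Z.fderiv_lift] at hv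
      obtain ⟨h7, b, h8⟩ := (h5 α.c α.hc α.t).2 _ hw _ (P296Z.ins_ne_zero _ _) _ _ a hv
      have h9 : b = 0 := by
        have := congrFun h8 α.k
        rw [P296Z.ins0_self, Pi.smul_apply, P296Z.ins_self, smul_eq_mul, mul_one] at this
        exact this.symm
      rw [h9, zero_smul] at h8
      funext i
      refine Fin.addCases (fun i => ?_) (fun j => ?_) i
      · exact congrFun h7 i
      · have := congrFun h8 (α.k.succAbove j)
        rwa [P296Z.ins0_succAbove] at this

theorem ample_of (h : P296Z.IsAmple n (q + 1) E) : IsAmple (Cn n) (Cn (q + 1)) E :=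
  haveI := oc_smooth (n := n) (q := q) (E := E)
  ⟨Cn (n + q), _, _, PE n q E, _, _, (oc n q E).Fiber, _, _, _, _, _, _, PE.base, qq, PE.of n q,
    inferInstance, inferInstance, inferInstance, isProj, ampleLine h⟩

end Vale.Agent.P296T
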