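import Vale.Agent.P296D80.Amp

/-! From the definitions over `ℂⁿ` to the definitions with the projective bundle as an object. -/

set_option linter.all false

noncomputable section

namespace Vale.Agent.P296T

open Bundle
open scoped Manifold ContDiff

variable {n r : ℕ} {X : Type} [TopologicalSpace X] [ChartedSpace (Cn n) X]
  {E : X → Type} [∀ x, AddCommGroup (E x)] [∀ x, Module ℂ (E x)]
  [∀ x, TopologicalSpace (E x)] [TopologicalSpace (TotalSpace (Cn r) E)] [FiberBundle (Cn r) E]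

/-- the same metric -/
def Herm.toC (H : Herm (Cn n) (Cn r) E) : P296C.Herm n r E := ⟨H.h, H.herm, H.pos, H.smooth⟩

variable [∀ x, IsTopologicalAddGroup (E x)] [∀ x, ContinuousSMul ℝ (E x)]
  [IsManifold 𝓘(ℝ, Cn n) ∞ X]

theorem chern_iff {H : Herm (Cn n) (Cn r) E} {D : Conn (Cn n) (Cn r) E} :
    IsChern H D ↔ P296C.IsChern H.toC D :=
  ⟨fun h => ⟨h.1, h.2, h.3, h.4⟩, fun h => ⟨h.1, h.2, h.3, h.4⟩⟩

theorem main : (∀ n r : ℕ, AllWellDefined (Cn r) r fun z : Cn n => z) ∧ (¬ ∀ n r : ℕ, Q1 n r) ∧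
    ∀ r : ℕ, 2 ≤ r → ¬ Q1 2 r := by
  have key : ∀ n q, Q1 n (q + 1) → P296C.Griffiths n (q + 1) := by
    intro n q h X _ _ _ _ _ _ _ hX E _ _ _ _ _ _ _ _ _ hE
    obtain ⟨H, D, R, h1, h2, h3⟩ := h X hX E (ample_of hE)
    exact ⟨H.toC, D, R, chern_iff.1 h1, h2, h3⟩
  have k2 : ∀ r : ℕ, 2 ≤ r → ¬ Q1 2 r := by
    intro r hr h
    obtain ⟨q, rfl⟩ : ∃ q, r = q + 1 := ⟨r - 1, by omega⟩
    exact P296C.main.2.2 _ hr (key 2 q h)
  refine ⟨fun n r X _ _ _ _ _ _ E _ _ _ _ _ _ _ _ _ => ?_, fun h => k2 2 le_rfl (h 2 2), k2⟩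
  obtain ⟨⟨H0⟩, h⟩ := P296C.main.1 n r X E
  refine ⟨⟨⟨H0.h, H0.herm, H0.pos, H0.smooth⟩⟩, fun H => ?_⟩
  obtain ⟨h1, D, h2, h3, R, h4, h5, h6⟩ := h H.toC
  exact ⟨h1, D, chern_iff.2 h2, fun D' h' => h3 D' (chern_iff.1 h'), R, h4,
    fun D' R' h' => h5 D' R' (chern_iff.1 h'), h6⟩

end Vale.Agent.P296T
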